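import Vale.Agent.P287Q.G.Qrr.Stm
import Vale.Agent.P287Q.G.Bas.Defs
import Vale.Agent.P287Q.G.Vir.Sd

/-! The numerical inputs for the Virasoro constraints of a point. -/

namespace Vale.Agent.P269.St

open P291Z Set Function Fock

/-- A nonzero invariant has an integrand of the degree of the virtual class. -/
def Dim : Prop :=
  ∀ {S Λ R J K ν κ I : Type} [Fintype S] [Fintype Λ] [Fintype R] [Fintype J] [Fintype K] [Fintype ν]
    [Fintype κ] [Fintype I] [DecidableEq R] [DecidableEq I] (F : Fam S Λ R J K) (δ : J → ℕ) (k : ℕ)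
    (g : ℤ) (d : R → ℤ) (u : ν → ℕ) (P : AM Λ R J ν κ → Prop) (fs : List (Fac F.toWt ν κ))
    (K₀ : RD R) (b : ℕ) (φ : I → J) (n ψ) (ms : List ℤ), F.Iv δ k g d u P fs → F.Reg K₀ → F.Sm b →
    F.Sh δ φ n ψ → List.Forall₂ (Fac.Deg (F.rv K₀)) fs ms →
    F.inv k g d (fun n => u n • δ) P fs ≠ 0 →
    ms.sum = 2 * F.vdim ν κ K₀ b (Fintype.card I) g d

/-- The dilaton equation, away from the components that become unstable. -/
def Dil : Prop :=
  ∀ {Λ R J K : Type} [Fintype Λ] [Fintype R] [Fintype J] [Fintype K] [DecidableEq R]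
    (F : Fam Empty Λ R J K) (k : ℕ) (Θ) (d : R → ℤ) (j : ℤ) {n : ℕ}
    (f : Fin n → ℕ × H (F.X F.cone)), F.One k →
    F.corP k (fun m => ¬m.Un F.θ (mk0 0)) Θ d j (Fin.cons (1, 1) f) =
      (2 * j + n) * F.corP k (fun _ => True) Θ d j f

/-- Splitting off the component of a marked point, with a twisting class. -/
def ProdT : Prop :=
  ∀ {Λ R J K : Type} [Fintype Λ] [Fintype R] [Fintype J] [Fintype K] [DecidableEq R]
    (F : Fam Empty Λ R J K) (k : ℕ) {V : Type} [AddCommGroup V] [Module ℂ V] (p : Fock.Par ℂ V)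
    (i : V →ₗ[ℂ] H (F.X F.cone)) (Θ) {β : Type} (T : Finset β) (Θ₁ Θ₂), F.One k →
    IsEv p (parH _) i → Qrr.Cop Θ T Θ₁ Θ₂ → ∀ d j v (x : Fock.S (p.fs ℕ)),
    F.ser0 k (F.exT Θ) p i d j (ι _ v * x) = ∑ᶠ q : (R → ℤ) × ℤ, ∑ t ∈ T,
      Deg.tp (F.ser0 k ⟨fun _ _ m => m.Conn, Θ₁ t, univ, 1⟩ p i q.1 q.2)
        (F.ser0 k (F.exT (Θ₂ t)) p i (d - q.1) (j - q.2))
        (ι _ (v, 0) * Fock.map _ (Deg.isEv_diag (p.fs ℕ)) x)

end Vale.Agent.P269.St
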